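import Vale.Agent.P103W33.Wil
import Mathlib.AlgebraicTopology.SingularHomology.Basic
import Mathlib.Algebra.Category.ModuleCat.Colimits
import Mathlib.Algebra.Category.ModuleCat.Abelian
import Mathlib.Geometry.Manifold.IsManifold.Basic
import Mathlib.Analysis.Normed.Module.FiniteDimension

/-! # P103 bridge: Mathlib's singular homology of a compact manifold -/

noncomputable section

namespace Vale.Agent.P103W33

open Set Topology CategoryTheory Limits Simplicial AlgebraicTopology Vale.Agent.P246.T
  Vale.Agent.P223W25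

variable (R : Type) [CommRing R] (X : Type) [TopologicalSpace X]

/-- the singular simplicial set -/
abbrev SX : SSet.{0} := TopCat.toSSet.obj (TopCat.of X)

/-- Mathlib's singular chain complex -/
abbrev KX : ChainComplex (ModuleCat.{0} R) ℕ := (SX X).chainComplex (ModuleCat.of R R)

/-- singular simplices as continuous maps -/
def toC {n : ℕ} : (SX X) _⦋n⦌ ≃ C(Dl (n + 1), X) :=
  TopCat.toSSetObjEquiv (TopCat.of X) (Opposite.op (SimplexCategory.mk n))

/-- from finitely supported functions to Mathlib's chains -/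
def io (n : ℕ) : C R n X →ₗ[R] (KX R X).X n :=
  Finsupp.linearCombination R fun σ =>
    ((SX X).ιChainComplex ((toC X).symm σ) : ModuleCat.of R R ⟶ (KX R X).X n).hom (1 : R)

/-- the inverse map -/
def ro (n : ℕ) : (KX R X).X n ⟶ ModuleCat.of R (C R n X) :=
  ((SX X).isColimitChainComplexXCofan (ModuleCat.of R R) n).desc
    (Cofan.mk _ fun x => ModuleCat.ofHom
      (LinearMap.toSpanSingleton R (C R n X) (Finsupp.single (toC X x) 1)))

variable {R X}

theorem io_single {n : ℕ} (σ : C(Dl (n + 1), X)) (r : R) : io R X n (Finsupp.single σ r) =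
    r • ((SX X).ιChainComplex ((toC X).symm σ) : ModuleCat.of R R ⟶ (KX R X).X n).hom (1 : R) :=
  Finsupp.linearCombination_single _ _ _

theorem ι_ro {n : ℕ} (x : (SX X) _⦋n⦌) : (SX X).ιChainComplex x ≫ ro R X n =
    ModuleCat.ofHom (LinearMap.toSpanSingleton R (C R n X) (Finsupp.single (toC X x) 1)) :=
  ((SX X).isColimitChainComplexXCofan (ModuleCat.of R R) n).fac _ ⟨x⟩

theorem ro_io {n : ℕ} (c : C R n X) : (ro R X n).hom (io R X n c) = c := by
  induction c using Finsupp.induction_linear with
  | zero => rw [map_zero, map_zero]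
  | add a b ha hb => rw [map_add, map_add, ha, hb]
  | single σ r =>
    have h := congrArg (fun f => f.hom (1 : R)) (ι_ro (R := R) ((toC X).symm σ))
    simp only [ModuleCat.hom_comp, LinearMap.comp_apply, ModuleCat.hom_ofHom,
      LinearMap.toSpanSingleton_apply, one_smul, Equiv.apply_symm_apply] at h
    rw [io_single, map_smul, h, Finsupp.smul_single, smul_eq_mul, mul_one]

theorem io_ro {n : ℕ} (y : (KX R X).X n) : io R X n ((ro R X n).hom y) = y := by
  have h : ro R X n ≫ ModuleCat.ofHom (io R X n) = 𝟙 _ := by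
    refine SSet.chainComplex_hom_ext fun x => ?_
    rw [← Category.assoc, ι_ro, Category.comp_id]
    refine ModuleCat.hom_ext (LinearMap.ext_ring ?_)
    simp only [ModuleCat.hom_comp, LinearMap.comp_apply, ModuleCat.hom_ofHom,
      LinearMap.toSpanSingleton_apply, one_smul, io_single, Equiv.symm_apply_apply]
  exact congrArg (fun f => f.hom y) h

theorem io_bR {n : ℕ} (c : C R (n + 1) X) :
    io R X n (bR n c) = ((KX R X).d (n + 1) n).hom (io R X (n + 1) c) := by
  induction c using Finsupp.induction_linear with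
  | zero => simp only [map_zero]
  | add a b ha hb => simp only [map_add, ha, hb]
  | single σ r =>
    have h := congrArg (fun f => f.hom (1 : R))
      (SSet.ιChainComplex_d (X := SX X) (R := ModuleCat.of R R) ((toC X).symm σ))
    simp only [ModuleCat.hom_comp, LinearMap.comp_apply, ModuleCat.hom_sum,
      LinearMap.sum_apply] at h
    rw [ext_single, io_single, map_smul, map_smul, h, bd_single, map_sum, map_sum]
    congr 1
    refine Finset.sum_congr rfl fun i _ => ?_
    rw [cast_single, io_single, one_mul, Int.cast_smul_eq_zsmul]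
    rfl

theorem exists_phi (k j : ℕ) (hj : (ComplexShape.down ℕ).next k = j) (Z : Submodule R (C R k X))
    (hZ : ∀ c, c ∈ Z ↔ ((KX R X).d k j).hom (io R X k c) = 0) :
    ∃ Φ : Z →ₗ[R] (KX R X).homology k, Function.Surjective Φ ∧
      ∀ (c : Z) (b : C R (k + 1) X), bR k b = c → Φ c = 0 := by
  let f : ModuleCat.of R Z ⟶ (KX R X).X k := ModuleCat.ofHom (io R X k ∘ₗ Z.subtype)
  have hf : f ≫ (KX R X).d k j = 0 := ModuleCat.hom_ext (LinearMap.ext fun c => (hZ c).1 c.2)
  have hi : Function.Injective ((KX R X).iCycles k).hom :=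
    (ModuleCat.mono_iff_injective _).1 inferInstance
  have hl : ∀ c : Z, ((KX R X).iCycles k).hom (((KX R X).liftCycles f j hj hf).hom c) =
      io R X k c := fun c => congrArg (fun g => g.hom c) ((KX R X).liftCycles_i f j hj hf)
  refine ⟨((KX R X).liftCycles f j hj hf ≫ (KX R X).homologyπ k).hom, fun x => ?_,
    fun c b e => ?_⟩
  · obtain ⟨z, rfl⟩ := (ModuleCat.epi_iff_surjective ((KX R X).homologyπ k)).1 inferInstance x
    refine ⟨⟨(ro R X k).hom (((KX R X).iCycles k).hom z), (hZ _).2 ?_⟩, ?_⟩
    · rw [io_ro]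
      exact congrArg (fun g => g.hom z) ((KX R X).iCycles_d k j)
    · exact congrArg ((KX R X).homologyπ k).hom (hi ((hl _).trans (io_ro _)))
  · have h1 : ((KX R X).liftCycles f j hj hf).hom c =
        ((KX R X).toCycles (k + 1) k).hom (io R X (k + 1) b) := by
      apply hi
      rw [hl, ← e, io_bR]
      exact (congrArg (fun g => g.hom (io R X (k + 1) b)) ((KX R X).toCycles_i (k + 1) k)).symm
    show ((KX R X).homologyπ k).hom (((KX R X).liftCycles f j hj hf).hom c) = 0
    rw [h1]
    exact congrArg (fun g => g.hom (io R X (k + 1) b))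
      ((KX R X).toCycles_comp_homologyπ (k + 1) k)

theorem exists_phi' (k : ℕ) : ∃ Φ : Zc R (univ : Set X) k →ₗ[R] (KX R X).homology k,
    Function.Surjective Φ ∧
      ∀ (c : Zc R (univ : Set X) k) (b : C R (k + 1) X), bR k b = c → Φ c = 0 := by
  cases k with
  | zero =>
    refine exists_phi 0 0 (by simp) _ fun c => ⟨fun _ => ?_, fun _ => cn_univ c⟩
    rw [(KX R X).shape 0 0 (by simp)]
    rfl
  | succ k =>
    refine exists_phi (k + 1) k (by simp) _ fun c => ?_
    rw [← io_bR]
    refine ⟨fun h => ?_, fun h => ⟨cn_univ c, ?_⟩⟩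
    · rw [show bR k c = 0 from h.2, map_zero]
    · show bR k c = 0
      rw [← ro_io (bR k c), h, map_zero]

theorem finite_of_fm [IsNoetherianRing R] {k : ℕ}
    (h : Fm (Zc R (univ : Set X) k) (Bd R univ k)) : Module.Finite R ((KX R X).homology k) := by
  obtain ⟨Φ, h1, h2⟩ := exists_phi' (R := R) (X := X) k
  obtain ⟨S, hS, -, h3⟩ := Fm.pull (X := Zc R (univ : Set X) k) (T := ⊤)
    (q := (Zc R (univ : Set X) k).subtype)
    (h.mono (by rw [Submodule.map_top, Submodule.range_subtype]) le_rfl)
  refine ⟨(hS.map Φ).of_le fun x _ => ?_⟩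
  obtain ⟨c, rfl⟩ := h1 x
  obtain ⟨s, hs, b, -, e⟩ := h3 c trivial
  refine ⟨s, hs, ?_⟩
  exact (sub_eq_zero.1 ((Φ.map_sub c s).symm.trans (h2 (c - s) b e))).symm

theorem charts {M : Type} [TopologicalSpace M] {E H : Type} [NormedAddCommGroup E]
    [NormedSpace ℝ E] [TopologicalSpace H] (I : ModelWithCorners ℝ E H) [I.Boundaryless]
    [ChartedSpace H M] (p : M) : ∃ e : OpenPartialHomeomorph M E, p ∈ e.source :=
  ⟨(chartAt H p).transHomeomorph I.toHomeomorph, mem_chart_source H p⟩

/-- the singular homology of a compact manifold is finite-dimensional -/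
theorem fin {M : Type} [TopologicalSpace M] [T2Space M] [CompactSpace M] {E H : Type}
    [NormedAddCommGroup E] [NormedSpace ℝ E] [FiniteDimensional ℝ E] [TopologicalSpace H]
    (I : ModelWithCorners ℝ E H) [I.Boundaryless] [ChartedSpace H M] (k : ℕ) :
    Module.Finite ℝ (((singularHomologyFunctor (ModuleCat.{0} ℝ) k).obj
      (ModuleCat.of ℝ ℝ)).obj (TopCat.of M)) :=
  haveI := FiniteDimensional.proper_real E
  finite_of_fm (fm_univ (charts I) k)

/-- the singular homology of a compact manifold vanishes above the dimension -/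
theorem van {M : Type} [TopologicalSpace M] [T2Space M] [CompactSpace M] {E H : Type}
    [NormedAddCommGroup E] [NormedSpace ℝ E] [FiniteDimensional ℝ E] [TopologicalSpace H]
    (I : ModelWithCorners ℝ E H) [I.Boundaryless] [ChartedSpace H M] (k : ℕ)
    (hk : Module.finrank ℝ E < k) :
    Subsingleton (((singularHomologyFunctor (ModuleCat.{0} ℝ) k).obj
      (ModuleCat.of ℝ ℝ)).obj (TopCat.of M)) := by
  rcases hd : Module.finrank ℝ E with _ | m
  · have : Subsingleton E := Module.finrank_zero_iff.1 hd
    have : DiscreteTopology M := by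
      refine discreteTopology_iff_isOpen_singleton.2 fun p => ?_
      obtain ⟨e, he⟩ := charts I p
      have : e.source = {p} :=
        eq_singleton_iff_unique_mem.2 ⟨he, fun x hx => e.injOn hx he (Subsingleton.elim _ _)⟩
      exact this ▸ e.open_source
    exact ModuleCat.isZero_iff_subsingleton.1
      (isZero_singularHomologyFunctor_of_totallyDisconnectedSpace _ _ _ _ (by omega))
  · obtain ⟨k, rfl⟩ : ∃ j, k = j + 1 := ⟨k - 1, by omega⟩
    let L : E ≃L[ℝ] (Fin (m + 1) → ℝ) :=
      ContinuousLinearEquiv.ofFinrankEq (by rw [hd, Module.finrank_fin_fun])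
    have h := (pk_all (R := ℝ) (M := M) (m := m) (fun p => by
      obtain ⟨e, he⟩ := charts I p
      exact ⟨e.transHomeomorph L.toHomeomorph, he⟩) isClosed_univ).van k (by omega)
    obtain ⟨Φ, h1, h2⟩ := exists_phi' (R := ℝ) (X := M) (k + 1)
    have h3 : ∀ x : (KX ℝ M).homology (k + 1), x = 0 := fun x => by
      obtain ⟨c, rfl⟩ := h1 x
      obtain ⟨b, hb⟩ := h c.1 (by rw [show bR k c.1 = 0 from c.2.2]; exact zero_mem _)
      rw [compl_univ] at hb
      exact h2 c b (sub_eq_zero.1 (cn_empty hb)).symm
    exact ⟨fun x y => (h3 x).trans (h3 y).symm⟩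

end Vale.Agent.P103W33

end
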