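import Vale.Agent.P223W25.Hat
import Mathlib.RingTheory.Noetherian.Basic
import Mathlib.Topology.MetricSpace.Thickening

/-! # P103 bridge: the singular homology of a compact manifold is finitely generated (chains) -/

noncomputable section

namespace Vale.Agent.P103W33

open Set Topology Vale.Agent.P246.T Vale.Agent.P223W25

section Alg

variable {R : Type} [CommRing R] {X Y Z : Type} [AddCommGroup X] [Module R X] [AddCommGroup Y]
  [Module R Y] [AddCommGroup Z] [Module R Z]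

/-- `A` is finitely generated modulo `N` -/
def Fm (A N : Submodule R X) : Prop := ∃ S : Submodule R X, S.FG ∧ A ≤ N ⊔ S

theorem Fm.of_le {A N : Submodule R X} (h : A ≤ N) : Fm A N :=
  ⟨⊥, Submodule.fg_bot, h.trans le_sup_left⟩

theorem Fm.trans {A B N : Submodule R X} (h : Fm A B) (h' : Fm B N) : Fm A N := by
  obtain ⟨S, hS, h⟩ := h
  obtain ⟨T, hT, h'⟩ := h'
  exact ⟨T ⊔ S, hT.sup hS, h.trans (by rw [← sup_assoc]; exact sup_le_sup_right h' S)⟩

theorem Fm.sup {A B N : Submodule R X} (h : Fm A N) (h' : Fm B N) : Fm (A ⊔ B) N := by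
  obtain ⟨S, hS, h⟩ := h
  obtain ⟨T, hT, h'⟩ := h'
  exact ⟨S ⊔ T, hS.sup hT, sup_le (h.trans (sup_le_sup_left le_sup_left N))
    (h'.trans (sup_le_sup_left le_sup_right N))⟩

theorem Fm.mono {A A' N N' : Submodule R X} (h : Fm A N) (hA : A' ≤ A) (hN : N ≤ N') :
    Fm A' N' := ((Fm.of_le hA).trans h).trans (Fm.of_le hN)

theorem lift_fg (T : Submodule R X) (r : X →ₗ[R] Y) (h : (T.map r).FG) :
    ∃ S : Submodule R X, S.FG ∧ S ≤ T ∧ T.map r ≤ S.map r := by
  obtain ⟨t, ht⟩ := h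
  have h1 : ∀ y : t, ∃ x ∈ T, r x = y := fun y =>
    Submodule.mem_map.1 (ht ▸ Submodule.subset_span y.2)
  choose x hx hr using h1
  refine ⟨Submodule.span R (range x), Submodule.fg_span (finite_range x),
    Submodule.span_le.2 (range_subset_iff.2 hx), ?_⟩
  rw [← ht, Submodule.span_le]
  intro y hy
  exact ⟨x ⟨y, hy⟩, Submodule.subset_span (mem_range_self _), hr ⟨y, hy⟩⟩

theorem Fm.pull [IsNoetherianRing R] {T : Submodule R X} {q : X →ₗ[R] Y} {N : Submodule R Y}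
    (h : Fm (T.map q) N) :
    ∃ S : Submodule R X, S.FG ∧ S ≤ T ∧ ∀ t ∈ T, ∃ s ∈ S, q (t - s) ∈ N := by
  obtain ⟨S, hS, h⟩ := h
  have h1 : (T.map (N.mkQ ∘ₗ q)).FG := by
    refine (hS.map N.mkQ).of_le ?_
    rintro _ ⟨t, ht, rfl⟩
    obtain ⟨n, hn, s, hs, e⟩ := Submodule.mem_sup.1 (h ⟨t, ht, rfl⟩)
    refine ⟨s, hs, ?_⟩
    rw [LinearMap.comp_apply, ← e, map_add, Submodule.mkQ_apply N n,
      (Submodule.Quotient.mk_eq_zero N).2 hn, zero_add]
  obtain ⟨S', h2, h3, h4⟩ := lift_fg T _ h1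
  refine ⟨S', h2, h3, fun t ht => ?_⟩
  obtain ⟨s, hs, e⟩ := h4 ⟨t, ht, rfl⟩
  refine ⟨s, hs, ?_⟩
  rw [map_sub]
  exact (Submodule.Quotient.eq N).1 e.symm

end Alg

variable {R : Type} [CommRing R] {M : Type} [TopologicalSpace M]

variable (R) in
/-- the cycles in `U` -/
def Zc (U : Set M) : (k : ℕ) → Submodule R (C R k M)
  | 0 => Cn R U 0
  | k + 1 => Cn R U (k + 1) ⊓ LinearMap.ker (bR k)

variable (R) in
/-- the boundaries of chains in `U` -/
def Bd (U : Set M) (k : ℕ) : Submodule R (C R k M) := (Cn R U (k + 1)).map (bR k)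

theorem zc_mono {U V : Set M} (h : U ⊆ V) : ∀ k, Zc R U k ≤ Zc R V k
  | 0 => fun _ hc => cn_mono h hc
  | _ + 1 => fun _ hc => ⟨cn_mono h hc.1, hc.2⟩

theorem bd_mono {U V : Set M} (h : U ⊆ V) (k : ℕ) : Bd R U k ≤ Bd R V k :=
  Submodule.map_mono fun _ hc => cn_mono h hc

theorem zc_le (U : Set M) : ∀ k, Zc R U k ≤ Cn R U k
  | 0 => le_rfl
  | _ + 1 => inf_le_left

theorem bR_mem_zc {U : Set M} : ∀ {k : ℕ} {c : C R (k + 1) M}, bR k c ∈ Cn R U k →
    bR k c ∈ Zc R U k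
  | 0, _, h => h
  | k + 1, c, h => ⟨h, bR_bR k c⟩

theorem zc_union_zero (U V : Set M) : Zc R (U ∪ V) 0 ≤ Zc R U 0 ⊔ Zc R V 0 := by
  show Cn R (U ∪ V) 0 ≤ Cn R U 0 ⊔ Cn R V 0
  rw [Cn, Cn, Cn, ← Finsupp.supported_union]
  refine Finsupp.supported_mono fun σ hσ => ?_
  have e : ∀ x : Dl (0 + 1), x = stdSimplex.barycenter := fun x =>
    Subsingleton.elim (α := stdSimplex ℝ (Fin 1)) _ _
  rcases hσ stdSimplex.barycenter with h | h
  · exact Or.inl fun x => e x ▸ h
  · exact Or.inr fun x => e x ▸ h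

/-- the thick Mayer-Vietoris step -/
theorem thick [IsNoetherianRing R] {U V U' V' W : Set M} (hU : IsOpen U) (hV : IsOpen V)
    (hUU : U ⊆ U') (hVV : V ⊆ V') (hW : U ∪ V ⊆ W) {k : ℕ}
    (h0 : Fm (Zc R (U ∩ V) k) (Bd R (U' ∩ V') k))
    (h1 : Fm (Zc R U' (k + 1)) (Bd R W (k + 1))) (h2 : Fm (Zc R V' (k + 1)) (Bd R W (k + 1))) :
    Fm (Zc R (U ∪ V) (k + 1)) (Bd R W (k + 1)) := by
  let p : (C R (k + 1) M × C R (k + 1) M) →ₗ[R] C R (k + 1) M :=
    LinearMap.fst R _ _ + LinearMap.snd R _ _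
  let q : (C R (k + 1) M × C R (k + 1) M) →ₗ[R] C R k M := bR k ∘ₗ LinearMap.fst R _ _
  let T : Submodule R (C R (k + 1) M × C R (k + 1) M) :=
    (Cn R U (k + 1)).prod (Cn R V (k + 1)) ⊓ LinearMap.ker (bR k ∘ₗ p)
  have hT : ∀ t ∈ T, t.1 ∈ Cn R U (k + 1) ∧ t.2 ∈ Cn R V (k + 1) ∧
      bR k t.1 + bR k t.2 = 0 := fun t ht => ⟨ht.1.1, ht.1.2, by
    rw [← map_add]; exact ht.2⟩
  have h3 : T.map q ≤ Zc R (U ∩ V) k := by
    rintro _ ⟨t, ht, rfl⟩
    obtain ⟨a, b, e⟩ := hT t ht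
    refine bR_mem_zc (c := t.1) (cn_inter (bR_mem a) ?_)
    rw [eq_neg_of_add_eq_zero_left e]
    exact neg_mem (bR_mem b)
  obtain ⟨S, hS, hST, h4⟩ := (h0.mono h3 le_rfl).pull
  have h5 : Fm (T.map p) (Zc R U' (k + 1) ⊔ Zc R V' (k + 1)) := by
    refine ⟨S.map p, hS.map p, ?_⟩
    rintro _ ⟨t, ht, rfl⟩
    obtain ⟨s, hs, w, hw, e⟩ := h4 t ht
    obtain ⟨a, b, e'⟩ := hT _ (sub_mem ht (hST hs))
    have e2 : bR k w = bR k (t - s).1 := e
    refine Submodule.mem_sup.2 ⟨((t - s).1 - w) + ((t - s).2 + w), Submodule.add_mem_sup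
      ⟨sub_mem (cn_mono hUU a) (cn_mono inter_subset_left hw), ?_⟩
      ⟨add_mem (cn_mono hVV b) (cn_mono inter_subset_right hw), ?_⟩, p s, ⟨s, hs, rfl⟩, ?_⟩
    · show bR k _ = 0
      rw [map_sub, e2, sub_self]
    · show bR k _ = 0
      rw [map_add, e2, add_comm, e']
    · show _ + (s.1 + s.2) = t.1 + t.2
      rw [Prod.fst_sub, Prod.snd_sub]
      abel
  refine ((Fm.of_le le_rfl).sup (h5.trans (h1.sup h2))).mono (fun c hc => ?_) le_rfl
  obtain ⟨d, hd, u, hu, v, hv, e⟩ := split hU hV hc.1 (zero_mem _) (zero_mem _)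
    (by rw [add_zero]; exact hc.2)
  refine Submodule.mem_sup.2 ⟨bR (k + 1) d, ⟨d, cn_mono hW hd, rfl⟩, u + v,
    ⟨(u, v), ⟨⟨hu, hv⟩, ?_⟩, rfl⟩, (add_assoc _ u v).symm.trans e.symm⟩
  have e1 : bR k c = 0 := hc.2
  rw [e, add_assoc _ u v, map_add, bR_bR, zero_add] at e1
  exact e1

variable (R) in
/-- small neighbourhoods have finitely generated homology in large ones -/
def G (K : Set M) : Prop :=
  ∀ (k : ℕ) (W : Set M), IsOpen W → K ⊆ W → ∃ U, IsOpen U ∧ K ⊆ U ∧ Fm (Zc R U k) (Bd R W k)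

theorem g_empty : G R (∅ : Set M) := fun k _ _ _ =>
  ⟨∅, isOpen_empty, Subset.rfl, Fm.of_le fun c hc => by
    rw [cn_empty (zc_le _ k hc)]
    exact zero_mem _⟩

theorem g_union [IsNoetherianRing R] [T2Space M] {A B : Set M} (hA : IsCompact A)
    (hB : IsCompact B) (h1 : G R A) (h2 : G R B) (h3 : G R (A ∩ B)) : G R (A ∪ B) := by
  intro k W hW hs
  obtain ⟨U', a1, a2, a3⟩ := h1 k W hW (subset_union_left.trans hs)
  obtain ⟨V', b1, b2, b3⟩ := h2 k W hW (subset_union_right.trans hs)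
  cases k with
  | zero =>
    exact ⟨U' ∪ V', a1.union b1, union_subset_union a2 b2,
      (a3.sup b3).mono (zc_union_zero _ _) le_rfl⟩
  | succ k =>
    obtain ⟨O, c1, c2, c3⟩ := h3 k (U' ∩ V') (a1.inter b1) (inter_subset_inter a2 b2)
    obtain ⟨P, Q, hP, hQ, d1, d2, d3⟩ := SeparatedNhds.of_isCompact_isCompact (hA.diff c1)
      (hB.diff c1) (disjoint_left.2 fun x hx hx' => hx.2 (c2 ⟨hx.1, hx'.1⟩))
    have hAP : A ⊆ (P ∪ O) ∩ (U' ∩ W) := fun x hx =>
      ⟨(em (x ∈ O)).elim Or.inr fun h => Or.inl (d1 ⟨hx, h⟩), a2 hx, hs (Or.inl hx)⟩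
    have hBQ : B ⊆ (Q ∪ O) ∩ (V' ∩ W) := fun x hx =>
      ⟨(em (x ∈ O)).elim Or.inr fun h => Or.inl (d2 ⟨hx, h⟩), b2 hx, hs (Or.inr hx)⟩
    have o1 := (hP.union c1).inter (a1.inter hW)
    have o2 := (hQ.union c1).inter (b1.inter hW)
    refine ⟨_, o1.union o2, union_subset_union hAP hBQ, thick o1 o2 (fun x hx => hx.2.1)
      (fun x hx => hx.2.1) (union_subset (fun x hx => hx.2.2) fun x hx => hx.2.2)
      (c3.mono (zc_mono (fun x hx => ?_) k) le_rfl) a3 b3⟩
    rcases hx.1.1 with h | h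
    · rcases hx.2.1 with h' | h'
      · exact (disjoint_left.1 d3 h h').elim
      · exact h'
    · exact h

section Chart

variable {E : Type} [NormedAddCommGroup E] [NormedSpace ℝ E]

theorem bR_prR_zero {N : Type} [TopologicalSpace N] (H : C(I × M, N)) (f g : C(M, N))
    (hf : ∀ x, H (0, x) = f x) (hg : ∀ x, H (1, x) = g x) (c : C R 0 M) :
    bR 0 (prR H 0 c) = pR g 0 c - pR f 0 c :=
  lin_eq (f := bR 0 ∘ₗ prR H 0) (g := pR g 0 - pR f 0) (fun a => by
    simp only [LinearMap.comp_apply, LinearMap.sub_apply, ext_cast,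
      FM.bd_pr_zero PR.op H f g hf hg, map_sub]) c

theorem cvx {B : Set E} (hB : Convex ℝ B) {y : E} (hy : y ∈ B) {k : ℕ} {c : C R k E}
    (hc : c ∈ Zc R B k) : ∃ b ∈ Cn R B (k + 1), ∃ r : R,
      c = bR k b + r • cast R (ksx k y) := by
  let H : C(I × E, E) := ⟨fun q => q.2 + (q.1 : ℝ) • (y - q.2), by fun_prop⟩
  have h0 : ∀ x, H (0, x) = ContinuousMap.id E x := fun x => by simp [H]
  have h1 : ∀ x, H (1, x) = ContinuousMap.const E y x := fun x => by simp [H]
  refine ⟨-prR H k c, neg_mem (prR_mem H (fun t x hx => hB.add_smul_sub_mem hx hy t.2)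
    (zc_le _ k hc)), c.sum fun _ r => r, ?_⟩
  rw [← pR_const, map_neg]
  cases k with
  | zero =>
    rw [bR_prR_zero H _ _ h0 h1, pR_id]
    abel
  | succ k =>
    have e : bR k c = 0 := hc.2
    rw [bR_prR H _ _ h0 h1, pR_id, e, map_zero]
    abel

variable {φ : C(E, M)} (hφ : IsOpenEmbedding φ)
include hφ

theorem fm_cvx {B : Set E} (hB : Convex ℝ B) {y : E} (hy : y ∈ B) (k : ℕ) :
    Fm (Zc R (φ '' B) k) (Bd R (φ '' B) k) := by
  refine ⟨Submodule.span R {pR φ k (cast R (ksx k y))}, Submodule.fg_span_singleton _,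
    fun c hc => ?_⟩
  obtain ⟨c', rfl⟩ := exists_pR hφ.isEmbedding (cn_mono (image_subset_range _ _) (zc_le _ k hc))
  have h1 : c' ∈ Cn R B k := by
    have := mem_of_pR hφ.injective (zc_le _ k hc)
    rwa [preimage_image_eq _ hφ.injective] at this
  have h2 : c' ∈ Zc R B k := by
    cases k with
    | zero => exact h1
    | succ k =>
      have e : bR k (pR φ (k + 1) c') = 0 := hc.2
      refine ⟨h1, cn_empty (mem_of_pR hφ.injective (A := ∅) ?_)⟩
      rw [← pR_bR, e]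
      exact zero_mem _
  obtain ⟨b, hb, r, e⟩ := cvx hB hy h2
  rw [e, map_add, map_smul, ← pR_bR]
  exact Submodule.add_mem_sup ⟨_, pR_mem (fun x hx => mem_image_of_mem φ hx) hb, rfl⟩
    (Submodule.smul_mem _ _ (Submodule.mem_span_singleton_self _))

theorem g_cvx {B : Set E} (hB : Convex ℝ B) (hK : IsCompact B) : G R (φ '' B) := by
  rcases B.eq_empty_or_nonempty with rfl | ⟨y, hy⟩
  · rw [image_empty]
    exact g_empty
  intro k W hW hs
  obtain ⟨δ, hδ, h⟩ := hK.exists_thickening_subset_open (hW.preimage φ.continuous)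
    (image_subset_iff.1 hs)
  have h1 := Metric.self_subset_thickening hδ B
  exact ⟨_, hφ.isOpenMap _ Metric.isOpen_thickening, image_mono h1,
    (fm_cvx hφ (hB.thickening δ) (h1 hy) k).mono le_rfl (bd_mono (image_subset_iff.2 h) k)⟩

variable [IsNoetherianRing R] [T2Space M]

theorem g_fin {ι : Type} (s : Finset ι) : ∀ B : ι → Set E,
    (∀ i, Convex ℝ (B i) ∧ IsCompact (B i)) → G R (φ '' ⋃ i ∈ s, B i) := by
  classical
  induction s using Finset.induction_on with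
  | empty =>
    intro B _
    simp only [Finset.notMem_empty, iUnion_of_empty, iUnion_empty, image_empty]
    exact g_empty
  | insert a s _ ih =>
    intro B hB
    rw [Finset.set_biUnion_insert, image_union]
    refine g_union ((hB a).2.image φ.continuous)
      ((s.isCompact_biUnion fun i _ => (hB i).2).image φ.continuous)
      (g_cvx hφ (hB a).1 (hB a).2) (ih B hB) ?_
    rw [← image_inter hφ.injective, inter_iUnion₂]
    exact ih (fun i => B a ∩ B i) fun i => ⟨(hB a).1.inter (hB i).1, (hB a).2.inter (hB i).2⟩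

theorem g_cpt [ProperSpace E] {K : Set E} (hK : IsCompact K) : G R (φ '' K) := by
  intro k W hW hs
  have : ∀ x : K, ∃ r > 0, Metric.closedBall x.1 r ⊆ φ ⁻¹' W := fun x =>
    Metric.nhds_basis_closedBall.mem_iff.1
      ((hW.preimage φ.continuous).mem_nhds (hs (mem_image_of_mem φ x.2)))
  choose r hr0 hr using this
  obtain ⟨s, h1⟩ := hK.elim_nhds_subcover' (fun x hx => Metric.closedBall x (r ⟨x, hx⟩))
    fun x hx => Metric.closedBall_mem_nhds x (hr0 ⟨x, hx⟩)
  obtain ⟨U, a1, a2, a3⟩ := g_fin (R := R) hφ s (fun i : K => Metric.closedBall i.1 (r i))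
    (fun i => ⟨convex_closedBall _ _, isCompact_closedBall _ _⟩) k W hW
    (image_subset_iff.2 (iUnion₂_subset fun i _ => hr i))
  exact ⟨U, a1, (image_mono h1).trans a2, a3⟩

omit hφ [IsNoetherianRing R] [T2Space M] in
theorem exists_emb' (e : OpenPartialHomeomorph M E) {p : M} (hp : p ∈ e.source) :
    ∃ φ : C(E, M), IsOpenEmbedding φ ∧ φ 0 = p := by
  obtain ⟨r, hr, h⟩ := Metric.isOpen_iff.1 e.open_target _ (e.map_source hp)
  let f := (OpenPartialHomeomorph.univBall (e p) r).trans e.symm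
  have hf : f.source = univ := by
    refine eq_univ_of_forall fun x => ⟨by simp, h ?_⟩
    rw [← OpenPartialHomeomorph.univBall_target (e p) hr]
    exact OpenPartialHomeomorph.map_source _ (by simp)
  have h1 := f.isOpenEmbedding hf
  refine ⟨⟨f, h1.continuous⟩, h1, ?_⟩
  show e.symm (OpenPartialHomeomorph.univBall (e p) r 0) = p
  rw [OpenPartialHomeomorph.univBall_apply_zero, e.left_inv hp]

omit hφ in
/-- the cycles of a compact manifold are finitely generated modulo the boundaries -/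
theorem fm_univ [ProperSpace E] [CompactSpace M]
    (hM : ∀ p : M, ∃ e : OpenPartialHomeomorph M E, p ∈ e.source) (k : ℕ) :
    Fm (Zc R (univ : Set M) k) (Bd R univ k) := by
  have key : ∃ K0, IsClosed K0 ∧ (univ : Set M) ⊆ K0 ∧ ∀ K, IsClosed K → K ⊆ K0 → G R K := by
    refine isCompact_univ.induction_on (p := fun S => ∃ K0, IsClosed K0 ∧ S ⊆ K0 ∧
      ∀ K, IsClosed K → K ⊆ K0 → G R K) ⟨∅, isClosed_empty, Subset.rfl, fun K _ h => ?_⟩
      ?_ ?_ ?_
    · rw [subset_empty_iff.1 h]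
      exact g_empty
    · rintro s t hst ⟨K0, h1, h2, h3⟩
      exact ⟨K0, h1, hst.trans h2, h3⟩
    · rintro s t ⟨A, h1, h2, h3⟩ ⟨B, k1, k2, k3⟩
      refine ⟨A ∪ B, h1.union k1, union_subset_union h2 k2, fun K hK h => ?_⟩
      rw [← inter_eq_left.2 h, inter_union_distrib_left]
      exact g_union (hK.inter h1).isCompact (hK.inter k1).isCompact
        (h3 _ (hK.inter h1) inter_subset_right) (k3 _ (hK.inter k1) inter_subset_right)
        (h3 _ ((hK.inter h1).inter (hK.inter k1)) (inter_subset_left.trans inter_subset_right))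
    · intro p _
      obtain ⟨e, he⟩ := hM p
      obtain ⟨φ, hφ, rfl⟩ := exists_emb' e he
      have hc := isCompact_closedBall (0 : E) 1
      refine ⟨φ '' Metric.closedBall 0 1, mem_nhdsWithin_of_mem_nhds
        (hφ.isOpenMap.image_mem_nhds (Metric.closedBall_mem_nhds _ one_pos)), _,
        (hc.image φ.continuous).isClosed, Subset.rfl, fun K hK h => ?_⟩
      have : K = φ '' (Metric.closedBall 0 1 ∩ φ ⁻¹' K) := by
        rw [image_inter_preimage, inter_eq_right.2 h]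
      rw [this]
      exact g_cpt hφ (hc.inter_right (hK.preimage φ.continuous))
  obtain ⟨K0, -, h1, h2⟩ := key
  obtain ⟨U, -, h3, h4⟩ := h2 univ isClosed_univ h1 k univ isOpen_univ Subset.rfl
  exact h4.mono (zc_mono h3 k) le_rfl

end Chart

end Vale.Agent.P103W33

end
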